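import Mathlib

/-!
P186 (with P201, P194): a linear isoperimetric inequality implies thin triangles.  Part 1: integrals
of 1-cochains over words, as a crossed homomorphism on the free group, and areas.  (helper650)
-/

namespace Vale.Agent.P186.Hy

open FreeGroup (of mk)

section cocycle

variable {A G : Type*} [Group G] (π : FreeGroup A →* G) (w : G → G → ℝ)

/-- one step of the lifted action on `G × ℝ` -/
def stp (a : A) : Equiv.Perm (G × ℝ) where
  toFun p := (p.1 * π (of a), p.2 + w p.1 (p.1 * π (of a)))
  invFun p := (p.1 * (π (of a))⁻¹, p.2 - w (p.1 * (π (of a))⁻¹) p.1)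
  left_inv p := by ext <;> simp
  right_inv p := by ext <;> simp

/-- the lifted action -/
def act : FreeGroup A →* (Equiv.Perm (G × ℝ))ᵐᵒᵖ := FreeGroup.lift (fun a => MulOpposite.op (stp π w a))

/-- integral of the cochain `w` along the word `u` from `x` -/
def J (x : G) (u : FreeGroup A) : ℝ := ((act π w u).unop (x, 0)).2

theorem act_apply (u : FreeGroup A) :
    ∀ x t, (act π w u).unop (x, t) = (x * π u, t + J π w x u) := by
  have key : ∀ u : FreeGroup A, ∀ x, ∃ c, ∀ t, (act π w u).unop (x, t) = (x * π u, t + c) := by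
    intro u
    induction u using FreeGroup.induction_on with
    | C1 => intro x; exact ⟨0, fun t => by simp⟩
    | of a =>
      intro x
      exact ⟨w x (x * π (of a)), fun t => by simp [act, stp]⟩
    | inv_of a _ =>
      intro x
      refine ⟨- w (x * (π (of a))⁻¹) x, fun t => ?_⟩
      rw [map_inv, map_inv, MulOpposite.unop_inv]
      change (Equiv.symm _) _ = _
      simp [act, stp, sub_eq_add_neg]
    | mul u v hu hv =>
      intro x
      obtain ⟨c, hc⟩ := hu x
      obtain ⟨d, hd⟩ := hv (x * π u)
      refine ⟨c + d, fun t => ?_⟩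
      rw [map_mul, MulOpposite.unop_mul, Equiv.Perm.mul_apply, hc, hd, map_mul, mul_assoc, add_assoc]
  intro x t
  obtain ⟨c, hc⟩ := key u x
  have h0 := hc 0
  have : J π w x u = c := by
    unfold J
    rw [h0]; simp
  rw [hc t, this]

@[simp] theorem J_one (x : G) : J π w x 1 = 0 := by
  unfold J; simp

theorem J_mul (x : G) (u v : FreeGroup A) : J π w x (u * v) = J π w x u + J π w (x * π u) v := by
  have h : (act π w (u * v)).unop (x, 0) = (act π w v).unop ((act π w u).unop (x, 0)) := by
    rw [map_mul, MulOpposite.unop_mul, Equiv.Perm.mul_apply]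
  rw [act_apply, act_apply, act_apply] at h
  have := congrArg Prod.snd h
  simpa using this

theorem J_inv (x : G) (u : FreeGroup A) : J π w (x * π u) u⁻¹ = - J π w x u := by
  have := J_mul π w x u u⁻¹
  rw [mul_inv_cancel, J_one] at this
  linarith

theorem J_inv' (x : G) (u : FreeGroup A) : J π w x u⁻¹ = - J π w (x * (π u)⁻¹) u := by
  have := J_inv π w (x * (π u)⁻¹) u
  rwa [inv_mul_cancel_right] at this

theorem J_of (x : G) (a : A) : J π w x (of a) = w x (x * π (of a)) := by
  unfold J act
  simp [stp]

variable {w}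

theorem J_letter (hw : ∀ x y, w x y = - w y x) (x : G) (l : A × Bool) :
    J π w x (mk [l]) = w x (x * π (mk [l])) := by
  obtain ⟨a, b⟩ := l
  cases b
  · have h : (mk [(a, false)] : FreeGroup A) = (of a)⁻¹ := by rfl
    rw [h, J_inv', J_of, map_inv, inv_mul_cancel_right, hw, neg_neg]
  · exact J_of π w x a

end cocycle

section area

variable {A G : Type*} [Group G]

/-- `u` is a product of `k` conjugates of elements of `R` and their inverses -/
inductive Area (R : Set (FreeGroup A)) : ℕ → FreeGroup A → Prop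
  | nil : Area R 0 1
  | cons (k : ℕ) (u v r : FreeGroup A) : (r ∈ R ∨ r⁻¹ ∈ R) → Area R k u →
      Area R (k + 1) (v * r * v⁻¹ * u)

variable (π : FreeGroup A →* G) {w : G → G → ℝ} {R : Set (FreeGroup A)}

theorem area_one (hR : ∀ r ∈ R, π r = 1) {k : ℕ} {u : FreeGroup A} (h : Area R k u) : π u = 1 := by
  induction h with
  | nil => simp
  | cons k u v r hr _ ih =>
    have h1 : π r = 1 := by
      rcases hr with hr | hr
      · exact hR _ hr
      · have := hR _ hr
        rw [map_inv] at this
        exact inv_eq_one.1 this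
    simp [h1, ih]

theorem J_area (hR : ∀ r ∈ R, π r = 1) {B : ℝ} (hB : ∀ r ∈ R, ∀ x, |J π w x r| ≤ B)
    {k : ℕ} {u : FreeGroup A} (h : Area R k u) : ∀ x, |J π w x u| ≤ k * B := by
  induction h with
  | nil => intro x; simp
  | cons k u v r hr hk ih =>
    intro x
    have h1 : π r = 1 ∧ ∀ x, |J π w x r| ≤ B := by
      rcases hr with hr | hr
      · exact ⟨hR _ hr, hB _ hr⟩
      · have h := hR _ hr
        rw [map_inv] at h
        have h' := inv_eq_one.1 h
        refine ⟨h', fun x => ?_⟩
        have := hB _ hr x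
        rw [J_inv', h', inv_one, mul_one, abs_neg] at this
        exact this
    have e : J π w x (v * r * v⁻¹ * u) = J π w (x * π v) r + J π w x u := by
      rw [J_mul, J_mul, J_mul]
      simp only [map_mul, map_inv, h1.1, mul_one]
      have e2 := J_inv π w x v
      rw [e2]
      rw [mul_inv_cancel, mul_one]
      ring
    rw [e]
    have a1 := h1.2 (x * π v)
    have a2 := ih x
    calc |J π w (x * π v) r + J π w x u| ≤ |J π w (x * π v) r| + |J π w x u| := abs_add_le _ _
      _ ≤ B + k * B := add_le_add a1 a2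
      _ = ((k + 1 : ℕ) : ℝ) * B := by push_cast; ring

end area

section bound

variable {A G : Type*} [Group G] (π : FreeGroup A →* G)

/-- the cochain `ψ dh` -/
noncomputable def cw (ψ h : G → ℝ) (x y : G) : ℝ := (ψ x + ψ y) / 2 * (h y - h x)

theorem cw_anti (ψ h : G → ℝ) (x y : G) : cw ψ h x y = - cw ψ h y x := by
  unfold cw; ring

/-- `ψ dh` along a word is close to `c * (h(end) - h(start))` -/
theorem J_cw_word (ψ h : G → ℝ) (L c : ℝ)
    (hψ : ∀ x (l : A × Bool), |ψ (x * π (mk [l])) - ψ x| ≤ L)
    (hh : ∀ x (l : A × Bool), |h (x * π (mk [l])) - h x| ≤ 1) (W : List (A × Bool)) :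
    ∀ x M, |ψ x - c| + L * W.length ≤ M → 0 ≤ L →
      |J π (cw ψ h) x (mk W) - c * (h (x * π (mk W)) - h x)| ≤ M * W.length := by
  induction W with
  | nil =>
    intro x M _ _
    have : (mk [] : FreeGroup A) = 1 := rfl
    simp [this]
  | cons l W ih =>
    intro x M hM hL
    have e : (mk (l :: W) : FreeGroup A) = mk [l] * mk W := by
      rw [FreeGroup.mul_mk]; rfl
    set y := x * π (mk [l]) with hy
    have hlen : ((l :: W).length : ℝ) = W.length + 1 := by simp
    have h1 : |ψ y - c| + L * W.length ≤ M := by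
      have a := hψ x l
      have b : |ψ y - c| ≤ |ψ y - ψ x| + |ψ x - c| := abs_sub_le _ _ _
      rw [hlen] at hM
      have : |ψ y - c| ≤ L + |ψ x - c| := by linarith
      nlinarith
    have h2 := ih y M h1 hL
    have h3 : |cw ψ h x y - c * (h y - h x)| ≤ M := by
      have e3 : cw ψ h x y - c * (h y - h x) = ((ψ x - c) + (ψ y - c)) / 2 * (h y - h x) := by
        unfold cw; ring
      rw [e3, abs_mul]
      have b1 : |((ψ x - c) + (ψ y - c)) / 2| ≤ M := by
        rw [abs_div, abs_two]
        have t := abs_add_le (ψ x - c) (ψ y - c)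
        have n1 : 0 ≤ L * W.length := by positivity
        have n2 : 0 ≤ L * (l :: W).length := by positivity
        linarith
      have b2 := hh x l
      have b3 : 0 ≤ M := le_trans (abs_nonneg _) b1
      calc _ ≤ M * 1 := mul_le_mul b1 b2 (abs_nonneg _) b3
        _ = M := mul_one _
    rw [e, J_mul, J_letter π (cw_anti ψ h), map_mul, ← mul_assoc, ← hy, hlen]
    have e4 : cw ψ h x y + J π (cw ψ h) y (mk W) - c * (h (y * π (mk W)) - h x)
        = (cw ψ h x y - c * (h y - h x)) +
          (J π (cw ψ h) y (mk W) - c * (h (y * π (mk W)) - h y)) := by ring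
    rw [e4]
    calc _ ≤ |cw ψ h x y - c * (h y - h x)| +
          |J π (cw ψ h) y (mk W) - c * (h (y * π (mk W)) - h y)| := abs_add_le _ _
      _ ≤ M + M * W.length := add_le_add h3 h2
      _ = M * (W.length + 1) := by ring

theorem J_cw_closed [DecidableEq A] (ψ h : G → ℝ) (L : ℝ) (hL : 0 ≤ L)
    (hψ : ∀ x (l : A × Bool), |ψ (x * π (mk [l])) - ψ x| ≤ L)
    (hh : ∀ x (l : A × Bool), |h (x * π (mk [l])) - h x| ≤ 1) (r : FreeGroup A) (hr : π r = 1)
    (m : ℕ) (hm : r.norm ≤ m) (x : G) : |J π (cw ψ h) x r| ≤ L * m ^ 2 := by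
  have h1 := J_cw_word π ψ h L (ψ x) hψ hh r.toWord x (L * r.toWord.length) (by simp) hL
  rw [FreeGroup.mk_toWord, hr] at h1
  simp only [mul_one, sub_self, mul_zero, sub_zero] at h1
  have h2 : (r.toWord.length : ℝ) ≤ m := by exact_mod_cast hm
  have h3 : (0 : ℝ) ≤ r.toWord.length := by positivity
  calc _ ≤ _ := h1
    _ = L * (r.toWord.length * r.toWord.length) := by ring
    _ ≤ L * (m * m) := by
        apply mul_le_mul_of_nonneg_left _ hL
        exact mul_le_mul h2 h2 h3 (by positivity)
    _ = L * m ^ 2 := by ring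

/-- `|ψ| ≤ 1`: the integral along a word is at most its length -/
theorem J_cw_le [DecidableEq A] (ψ h : G → ℝ) (h0 : ∀ x, 0 ≤ ψ x) (h1 : ∀ x, ψ x ≤ 1)
    (hh : ∀ x (l : A × Bool), |h (x * π (mk [l])) - h x| ≤ 1) (u : FreeGroup A) (x : G) :
    |J π (cw ψ h) x u| ≤ u.norm := by
  have key : ∀ (W : List (A × Bool)) (x : G), |J π (cw ψ h) x (mk W)| ≤ W.length := by
    intro W
    induction W with
    | nil =>
      intro x
      have : (mk [] : FreeGroup A) = 1 := rfl
      simp [this]
    | cons l W ih =>
      intro x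
      have e : (mk (l :: W) : FreeGroup A) = mk [l] * mk W := by
        rw [FreeGroup.mul_mk]; rfl
      rw [e, J_mul, J_letter π (cw_anti ψ h)]
      have a : |cw ψ h x (x * π (mk [l]))| ≤ 1 := by
        unfold cw
        rw [abs_mul]
        have b1 : |(ψ x + ψ (x * π (mk [l]))) / 2| ≤ 1 := by
          rw [abs_of_nonneg (by have := h0 x; have := h0 (x * π (mk [l])); positivity)]
          have := h1 x
          have := h1 (x * π (mk [l]))
          linarith
        calc _ ≤ (1 : ℝ) * 1 := mul_le_mul b1 (hh x l) (abs_nonneg _) zero_le_one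
          _ = 1 := mul_one _
      have b := ih (x * π (mk [l]))
      have hlen : ((l :: W).length : ℝ) = W.length + 1 := by simp
      rw [hlen]
      calc _ ≤ |cw ψ h x (x * π (mk [l]))| + |J π (cw ψ h) (x * π (mk [l])) (mk W)| := abs_add_le _ _
        _ ≤ _ := by linarith
  have := key u.toWord x
  rwa [FreeGroup.mk_toWord] at this

end bound

end Vale.Agent.P186.Hy
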