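import Vale.Agent.P186.Hy.Cocycle

/-!
P186: a linear isoperimetric inequality implies thin triangles.  Part 2: word metric, geodesics, the
corner lemma.  (helper650)
-/

set_option linter.unusedSectionVars false

namespace Vale.Agent.P186.Hy

open FreeGroup (of mk)

section metric

variable {A G : Type*} [DecidableEq A] [Group G]

/-- `d` is the word metric of `π` -/
def IsWM (π : FreeGroup A →* G) (d : G → G → ℕ) : Prop :=
  ∀ x y n, d x y ≤ n ↔ ∃ u : FreeGroup A, x * π u = y ∧ u.norm ≤ n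

variable {π : FreeGroup A →* G} {d : G → G → ℕ}

namespace IsWM

variable (hd : IsWM π d)
include hd

theorem self (x : G) : d x x = 0 := by
  have := (hd x x 0).2 ⟨1, by simp, by simp⟩
  omega

theorem symm_le (x y : G) : d x y ≤ d y x := by
  obtain ⟨u, hu, hn⟩ := (hd y x _).1 le_rfl
  refine (hd x y _).2 ⟨u⁻¹, ?_, by rwa [FreeGroup.norm_inv_eq]⟩
  rw [← hu, map_inv, mul_inv_cancel_right]

theorem symm (x y : G) : d x y = d y x := le_antisymm (hd.symm_le x y) (hd.symm_le y x)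

theorem tri (x y z : G) : d x z ≤ d x y + d y z := by
  obtain ⟨u, hu, hn⟩ := (hd x y _).1 le_rfl
  obtain ⟨v, hv, hm⟩ := (hd y z _).1 le_rfl
  refine (hd x z _).2 ⟨u * v, ?_, (FreeGroup.norm_mul_le u v).trans (add_le_add hn hm)⟩
  rw [map_mul, ← mul_assoc, hu, hv]

theorem letter (x : G) (l : A × Bool) : d x (x * π (mk [l])) ≤ 1 := by
  refine (hd _ _ _).2 ⟨mk [l], rfl, ?_⟩
  exact FreeGroup.norm_mk_le.trans (by simp)

end IsWM

open Classical in
/-- distance to a set -/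
noncomputable def dS (d : G → G → ℕ) (T : Set G) (x : G) : ℕ := sInf ((fun t => d x t) '' T)

theorem dS_le {T : Set G} {x t : G} (ht : t ∈ T) : dS d T x ≤ d x t :=
  Nat.sInf_le ⟨t, ht, rfl⟩

theorem exists_dS {T : Set G} (hT : T.Nonempty) (x : G) : ∃ t ∈ T, d x t = dS d T x := by
  have : dS d T x ∈ (fun t => d x t) '' T := Nat.sInf_mem (hT.image _)
  obtain ⟨t, ht, h⟩ := this
  exact ⟨t, ht, h⟩

theorem dS_lip (hd : IsWM π d) {T : Set G} (hT : T.Nonempty) (x y : G) :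
    dS d T x ≤ d x y + dS d T y := by
  obtain ⟨t, ht, h⟩ := exists_dS (d := d) hT y
  rw [← h]
  exact (dS_le ht).trans (hd.tri x y t)

/-- the cut-off function of width `r` around `T` -/
noncomputable def psi (d : G → G → ℕ) (T : Set G) (r : ℕ) (x : G) : ℝ := max 0 (1 - (dS d T x : ℝ) / r)

theorem psi_nonneg (T : Set G) (r : ℕ) (x : G) : 0 ≤ psi d T r x := le_max_left _ _

theorem psi_le_one (T : Set G) (r : ℕ) (x : G) : psi d T r x ≤ 1 := by
  unfold psi
  apply max_le zero_le_one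
  have : (0 : ℝ) ≤ (dS d T x : ℝ) / r := by positivity
  linarith

theorem psi_eq_one (hd : IsWM π d) {T : Set G} (r : ℕ) {x : G} (hx : x ∈ T) : psi d T r x = 1 := by
  have h : dS d T x = 0 := by
    have := dS_le (d := d) (x := x) hx
    rw [hd.self] at this
    omega
  unfold psi
  rw [h]; simp

theorem psi_eq_zero {T : Set G} (hT : T.Nonempty) {r : ℕ} (hr : 0 < r) {x : G}
    (hx : ∀ t ∈ T, r ≤ d x t) : psi d T r x = 0 := by
  obtain ⟨t, ht, h⟩ := exists_dS (d := d) hT x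
  have h1 : r ≤ dS d T x := by rw [← h]; exact hx t ht
  unfold psi
  apply max_eq_left
  have hr' : (0 : ℝ) < r := by exact_mod_cast hr
  have : (1 : ℝ) ≤ (dS d T x : ℝ) / r := by
    rw [le_div_iff₀ hr', one_mul]
    exact_mod_cast h1
  linarith

theorem abs_max_sub (a b : ℝ) : |max 0 a - max 0 b| ≤ |a - b| := by
  rcases le_total 0 a with ha | ha <;> rcases le_total 0 b with hb | hb
  · rw [max_eq_right ha, max_eq_right hb]
  · rw [max_eq_right ha, max_eq_left hb, sub_zero, abs_of_nonneg ha, abs_of_nonneg (by linarith)]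
    linarith
  · rw [max_eq_left ha, max_eq_right hb, zero_sub, abs_neg, abs_of_nonneg hb,
      abs_of_nonpos (by linarith)]
    linarith
  · rw [max_eq_left ha, max_eq_left hb, sub_zero, abs_zero]
    exact abs_nonneg _

theorem psi_lip (hd : IsWM π d) {T : Set G} (hT : T.Nonempty) {r : ℕ} (hr : 0 < r) (x : G)
    (l : A × Bool) : |psi d T r (x * π (mk [l])) - psi d T r x| ≤ 1 / r := by
  have hr' : (0 : ℝ) < r := by exact_mod_cast hr
  set y := x * π (mk [l])
  have h1 : d x y ≤ 1 := hd.letter x l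
  have h2 := dS_lip hd hT x y
  have h3 := dS_lip hd hT y x
  rw [hd.symm y x] at h3
  have h4 : |((dS d T x : ℝ)) - dS d T y| ≤ 1 := by
    rw [abs_le]
    constructor
    · have : dS d T y ≤ 1 + dS d T x := by omega
      have : (dS d T y : ℝ) ≤ 1 + dS d T x := by exact_mod_cast this
      linarith
    · have : dS d T x ≤ 1 + dS d T y := by omega
      have : (dS d T x : ℝ) ≤ 1 + dS d T y := by exact_mod_cast this
      linarith
  unfold psi
  refine (abs_max_sub _ _).trans ?_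
  have e : (1 - (dS d T y : ℝ) / r) - (1 - (dS d T x : ℝ) / r) = ((dS d T x : ℝ) - dS d T y) / r := by
    ring
  rw [e, abs_div, abs_of_pos hr']
  exact div_le_div_of_nonneg_right h4 hr'.le

/-- distance from `x0` as a real function -/
def hgt (d : G → G → ℕ) (x0 x : G) : ℝ := d x0 x

theorem hgt_lip (hd : IsWM π d) (x0 x : G) (l : A × Bool) :
    |hgt d x0 (x * π (mk [l])) - hgt d x0 x| ≤ 1 := by
  set y := x * π (mk [l])
  have h1 : d x y ≤ 1 := hd.letter x l
  have h2 := hd.tri x0 x y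
  have h3 := hd.tri x0 y x
  rw [hd.symm y x] at h3
  unfold hgt
  rw [abs_le]
  constructor
  · have : d x0 x ≤ d x0 y + 1 := by omega
    have : (d x0 x : ℝ) ≤ d x0 y + 1 := by exact_mod_cast this
    linarith
  · have : d x0 y ≤ d x0 x + 1 := by omega
    have : (d x0 y : ℝ) ≤ d x0 x + 1 := by exact_mod_cast this
    linarith

/-- geodesic with `n` steps -/
def Geo (d : G → G → ℕ) (γ : ℕ → G) (n : ℕ) : Prop :=
  ∀ i j, i ≤ j → j ≤ n → d (γ i) (γ j) = j - i

theorem Geo.dist {γ : ℕ → G} {n : ℕ} (h : Geo d γ n) (hd : IsWM π d) {i j : ℕ} (hi : i ≤ n)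
    (hj : j ≤ n) : d (γ i) (γ j) = max i j - min i j := by
  rcases le_total i j with hij | hij
  · rw [h i j hij hj, max_eq_right hij, min_eq_left hij]
  · rw [hd.symm, h j i hij hi, max_eq_left hij, min_eq_right hij]

/-- the path words of a geodesic -/
theorem Geo.exists_words (hd : IsWM π d) {γ : ℕ → G} {n : ℕ} (h : Geo d γ n) :
    ∃ E : ℕ → FreeGroup A, (∀ i ≤ n, γ 0 * π (E i) = γ i) ∧
      (∀ i j, i ≤ j → j ≤ n → ((E i)⁻¹ * E j).norm ≤ j - i) ∧
      ∀ (w : G → G → ℝ), (∀ x y, w x y = - w y x) → ∀ i j, i ≤ j → j ≤ n →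
        J π w (γ i) ((E i)⁻¹ * E j) = ∑ k ∈ Finset.Ico i j, w (γ k) (γ (k + 1)) := by
  classical
  -- letters
  have hl : ∀ k, ∃ l : FreeGroup A, k < n → (γ k * π l = γ (k + 1) ∧ l.norm ≤ 1) := by
    intro k
    by_cases hk : k < n
    · obtain ⟨u, hu, hn⟩ := (hd (γ k) (γ (k + 1)) 1).1 (by rw [h k (k + 1) (by omega) (by omega)]; omega)
      exact ⟨u, fun _ => ⟨hu, hn⟩⟩
    · exact ⟨1, fun h => absurd h hk⟩
  choose l hl using hl
  let E : ℕ → FreeGroup A := fun i => Nat.rec 1 (fun k e => e * l k) i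
  have hE0 : E 0 = 1 := rfl
  have hEs : ∀ k, E (k + 1) = E k * l k := fun k => rfl
  have h1 : ∀ i ≤ n, γ 0 * π (E i) = γ i := by
    intro i
    induction i with
    | zero => intro _; rw [hE0]; simp
    | succ k ih =>
      intro hk
      rw [hEs, map_mul, ← mul_assoc, ih (by omega), (hl k (by omega)).1]
  refine ⟨E, h1, ?_, ?_⟩
  · intro i j hij
    induction j, hij using Nat.le_induction with
    | base => intro _; simp
    | succ j hij ih =>
      intro hj
      have e : (E i)⁻¹ * E (j + 1) = ((E i)⁻¹ * E j) * l j := by rw [hEs, mul_assoc]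
      rw [e]
      have a := ih (by omega)
      have b := (hl j (by omega)).2
      have c := FreeGroup.norm_mul_le ((E i)⁻¹ * E j) (l j)
      omega
  · intro w hw i j hij
    induction j, hij using Nat.le_induction with
    | base => intro _; simp
    | succ j hij ih =>
      intro hj
      have e : (E i)⁻¹ * E (j + 1) = ((E i)⁻¹ * E j) * l j := by rw [hEs, mul_assoc]
      have e2 : γ i * π ((E i)⁻¹ * E j) = γ j := by
        rw [← h1 i (by omega), ← h1 j (by omega), map_mul, map_inv]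
        group
      rw [e, J_mul, ih (by omega), e2, Finset.sum_Ico_succ_top hij]
      congr 1
      -- a letter
      obtain ⟨a1, a2⟩ := hl j (by omega)
      have a3 : (l j).toWord.length ≤ 1 := a2
      have e3 : mk (l j).toWord = l j := FreeGroup.mk_toWord
      rcases hW : (l j).toWord with _ | ⟨c, _ | ⟨c', W⟩⟩
      · rw [hW] at e3
        have e4 : l j = 1 := by rw [← e3]; rfl
        have e5 : γ (j + 1) = γ j := by rw [← a1, e4]; simp
        have := hw (γ j) (γ j)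
        rw [e4, J_one, e5]
        linarith
      · rw [hW] at e3
        rw [← e3, J_letter π hw, e3, a1]
      · rw [hW] at a3
        simp at a3

end metric

section sums

variable {A G : Type*} [DecidableEq A] [Group G] {π : FreeGroup A →* G} {d : G → G → ℕ}

theorem sum_ind_le (i j : ℕ) :
    (∑ k ∈ Finset.Ico i j, (if k = i then (1 : ℝ) else 0)) ≤ 1 := by
  rw [Finset.sum_ite_eq']
  split_ifs <;> norm_num

theorem sum_ind_le' (i j : ℕ) :
    (∑ k ∈ Finset.Ico i j, (if k + 1 = j then (1 : ℝ) else 0)) ≤ 1 := by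
  rw [← Finset.sum_filter]
  rw [Finset.sum_const, nsmul_eq_mul, mul_one]
  have : ((Finset.Ico i j).filter (fun k => k + 1 = j)).card ≤ 1 := by
    rw [Finset.card_le_one]
    intro a ha b hb
    rw [Finset.mem_filter] at ha hb
    omega
  exact_mod_cast this

variable {ψ h : G → ℝ} {γ : ℕ → G} {i j : ℕ}

theorem sum_zero (h0 : ∀ k, i ≤ k → k ≤ j → ψ (γ k) = 0) :
    ∑ k ∈ Finset.Ico i j, cw ψ h (γ k) (γ (k + 1)) = 0 := by
  apply Finset.sum_eq_zero
  intro k hk
  rw [Finset.mem_Ico] at hk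
  unfold cw
  rw [h0 k hk.1 hk.2.le, h0 (k + 1) (by omega) (by omega)]
  simp

theorem sum_small (hp0 : ∀ x, 0 ≤ ψ x) (hp1 : ∀ x, ψ x ≤ 1)
    (hstep : ∀ k, i ≤ k → k < j → |h (γ (k + 1)) - h (γ k)| ≤ 1)
    (h0 : ∀ k, i < k → k < j → ψ (γ k) = 0) :
    |∑ k ∈ Finset.Ico i j, cw ψ h (γ k) (γ (k + 1))| ≤ 2 := by
  refine (Finset.abs_sum_le_sum_abs _ _).trans ?_
  have key : ∀ k ∈ Finset.Ico i j, |cw ψ h (γ k) (γ (k + 1))| ≤
      (if k = i then (1 : ℝ) else 0) + (if k + 1 = j then (1 : ℝ) else 0) := by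
    intro k hk
    rw [Finset.mem_Ico] at hk
    have hle : |cw ψ h (γ k) (γ (k + 1))| ≤ 1 := by
      unfold cw
      rw [abs_mul]
      have b1 : |(ψ (γ k) + ψ (γ (k + 1))) / 2| ≤ 1 := by
        have a1 := hp0 (γ k)
        have a2 := hp0 (γ (k + 1))
        have a3 := hp1 (γ k)
        have a4 := hp1 (γ (k + 1))
        rw [abs_of_nonneg (by positivity)]
        linarith
      calc _ ≤ (1 : ℝ) * 1 := mul_le_mul b1 (hstep k hk.1 hk.2) (abs_nonneg _) zero_le_one
        _ = 1 := mul_one _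
    by_cases h1 : k = i
    · rw [if_pos h1]
      split_ifs <;> linarith
    · by_cases h2 : k + 1 = j
      · rw [if_neg h1, if_pos h2]; linarith
      · rw [if_neg h1, if_neg h2]
        unfold cw
        rw [h0 k (by omega) (by omega), h0 (k + 1) (by omega) (by omega)]
        simp
  refine (Finset.sum_le_sum key).trans ?_
  rw [Finset.sum_add_distrib]
  have := sum_ind_le i j
  have := sum_ind_le' i j
  linarith

theorem sum_large (hp0 : ∀ x, 0 ≤ ψ x) (_ : i ≤ j)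
    (hstep : ∀ k, i ≤ k → k < j → h (γ (k + 1)) - h (γ k) = 1)
    (h1 : ∀ k, i < k → k < j → ψ (γ k) = 1) :
    ((j - i : ℕ) : ℝ) - 2 ≤ ∑ k ∈ Finset.Ico i j, cw ψ h (γ k) (γ (k + 1)) := by
  have key : ∀ k ∈ Finset.Ico i j,
      1 - (if k = i then (1 : ℝ) else 0) - (if k + 1 = j then (1 : ℝ) else 0) ≤
        cw ψ h (γ k) (γ (k + 1)) := by
    intro k hk
    rw [Finset.mem_Ico] at hk
    have e : cw ψ h (γ k) (γ (k + 1)) = (ψ (γ k) + ψ (γ (k + 1))) / 2 := by
      unfold cw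
      rw [hstep k hk.1 hk.2, mul_one]
    rw [e]
    have a1 := hp0 (γ k)
    have a2 := hp0 (γ (k + 1))
    by_cases c1 : k = i
    · rw [if_pos c1]
      split_ifs <;> linarith
    · by_cases c2 : k + 1 = j
      · rw [if_neg c1, if_pos c2]; linarith
      · rw [if_neg c1, if_neg c2, h1 k (by omega) (by omega), h1 (k + 1) (by omega) (by omega)]
        norm_num
  refine le_trans ?_ (Finset.sum_le_sum key)
  rw [Finset.sum_sub_distrib, Finset.sum_sub_distrib]
  have := sum_ind_le i j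
  have := sum_ind_le' i j
  rw [Finset.sum_const, nsmul_eq_mul, mul_one, Nat.card_Ico]
  linarith

end sums

section corner

variable {A G : Type*} [DecidableEq A] [Group G] {π : FreeGroup A →* G} {d : G → G → ℕ}
  {R : Set (FreeGroup A)} {m C r : ℕ}

/-- the linear isoperimetric inequality, with the width `r` large enough -/
structure Iso (π : FreeGroup A →* G) (R : Set (FreeGroup A)) (m C r : ℕ) : Prop where
  ker : ∀ u ∈ R, π u = 1
  len : ∀ u ∈ R, u.norm ≤ m
  area : ∀ u, π u = 1 → ∃ k, k ≤ C * u.norm ∧ Area R k u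
  pos : 0 < r
  large : 6 * C * m ^ 2 ≤ r

theorem Iso.main (H : Iso π R m C r) (hd : IsWM π d) {T : Set G} (hT : T.Nonempty) (x0 x : G)
    (u : FreeGroup A) (hu : π u = 1) :
    |J π (cw (psi d T r) (hgt d x0)) x u| ≤ (u.norm : ℝ) / 6 := by
  obtain ⟨k, hk, ha⟩ := H.area u hu
  have hr : (0 : ℝ) < r := by exact_mod_cast H.pos
  have h1 := J_area π (w := cw (psi d T r) (hgt d x0)) H.ker (B := 1 / r * m ^ 2)
    (fun v hv y => J_cw_closed π _ _ (1 / r) (by positivity) (psi_lip hd hT H.pos)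
      (hgt_lip hd x0) v (H.ker v hv) m (H.len v hv) y) ha x
  refine h1.trans ?_
  have h2 : (6 * C * m ^ 2 : ℝ) ≤ r := by exact_mod_cast H.large
  have h3 : (k : ℝ) ≤ C * u.norm := by exact_mod_cast hk
  have h4 : (0 : ℝ) ≤ (m : ℝ) ^ 2 := by positivity
  have h5 : (0 : ℝ) ≤ u.norm := by positivity
  calc (k : ℝ) * (1 / r * m ^ 2) ≤ (C * u.norm) * (1 / r * m ^ 2) :=
        mul_le_mul_of_nonneg_right h3 (by positivity)
    _ = (6 * C * m ^ 2) * (u.norm / (6 * r)) := by field_simp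
    _ ≤ r * (u.norm / (6 * r)) := mul_le_mul_of_nonneg_right h2 (by positivity)
    _ = u.norm / 6 := by field_simp

/-- the hexagon -/
theorem Iso.loop (H : Iso π R m C r) (hd : IsWM π d) {T : Set G} (hT : T.Nonempty) (x0 : G)
    {α g1 g2 : ℕ → G} {n n1 n2 : ℕ} (hα : Geo d α n) (hg1 : Geo d g1 n1) (hg2 : Geo d g2 n2)
    {i1 i2 s v1 t v2 : ℕ} (hi : i1 ≤ i2) (hi2 : i2 ≤ n) (hs : s ≤ v1) (hv1 : v1 ≤ n1)
    (ht : t ≤ v2) (hv2 : v2 ≤ n2) (e1 : d (α i2) (g2 v2) ≤ r) (e2 : d (g2 t) (g1 s) ≤ r)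
    (e3 : d (g1 v1) (α i1) ≤ r) :
    |(∑ k ∈ Finset.Ico i1 i2, cw (psi d T r) (hgt d x0) (α k) (α (k + 1)))
      - (∑ k ∈ Finset.Ico t v2, cw (psi d T r) (hgt d x0) (g2 k) (g2 (k + 1)))
      + (∑ k ∈ Finset.Ico s v1, cw (psi d T r) (hgt d x0) (g1 k) (g1 (k + 1)))| ≤
      3 * r + (((i2 - i1 : ℕ) : ℝ) + ((v2 - t : ℕ) : ℝ) + ((v1 - s : ℕ) : ℝ) + 3 * r) / 6 := by
  set w := cw (psi d T r) (hgt d x0) with hw
  have hanti : ∀ x y, w x y = - w y x := cw_anti _ _
  obtain ⟨E, hE1, hE2, hE3⟩ := hα.exists_words hd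
  obtain ⟨E1, hE11, hE12, hE13⟩ := hg1.exists_words hd
  obtain ⟨E2, hE21, hE22, hE23⟩ := hg2.exists_words hd
  obtain ⟨q1, hq1, hn1⟩ := (hd _ _ _).1 e1
  obtain ⟨q2, hq2, hn2⟩ := (hd _ _ _).1 e2
  obtain ⟨q3, hq3, hn3⟩ := (hd _ _ _).1 e3
  have pα : α i1 * π ((E i1)⁻¹ * E i2) = α i2 := by
    rw [← hE1 i1 (by omega), ← hE1 i2 hi2, map_mul, map_inv]; group
  have p2 : g2 t * π ((E2 t)⁻¹ * E2 v2) = g2 v2 := by
    rw [← hE21 t (by omega), ← hE21 v2 hv2, map_mul, map_inv]; group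
  have p2' : g2 v2 * π ((E2 t)⁻¹ * E2 v2)⁻¹ = g2 t := by
    rw [map_inv, ← p2, mul_inv_cancel_right]
  have p1 : g1 s * π ((E1 s)⁻¹ * E1 v1) = g1 v1 := by
    rw [← hE11 s (by omega), ← hE11 v1 hv1, map_mul, map_inv]; group
  set uα := (E i1)⁻¹ * E i2
  set u2 := (E2 t)⁻¹ * E2 v2
  set u1 := (E1 s)⁻¹ * E1 v1
  have hJα := hE3 w hanti i1 i2 hi hi2
  have hJ2 := hE23 w hanti t v2 ht hv2
  have hJ1 := hE13 w hanti s v1 hs hv1
  have hJ2' : J π w (g2 v2) u2⁻¹ = - J π w (g2 t) u2 := by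
    rw [← p2]; exact J_inv π w (g2 t) u2
  have hend : α i1 * π (uα * q1 * u2⁻¹ * q2 * u1 * q3) = α i1 := by
    simp only [map_mul, ← mul_assoc]
    rw [pα, hq1, p2', hq2, p1, hq3]
  have hclosed : π (uα * q1 * u2⁻¹ * q2 * u1 * q3) = 1 := by
    have := hend
    exact mul_eq_left.1 this
  have hJ : J π w (α i1) (uα * q1 * u2⁻¹ * q2 * u1 * q3) =
      J π w (α i1) uα + J π w (α i2) q1 - J π w (g2 t) u2 + J π w (g2 t) q2 + J π w (g1 s) u1
        + J π w (g1 v1) q3 := by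
    rw [J_mul, J_mul, J_mul, J_mul, J_mul]
    simp only [map_mul, ← mul_assoc]
    rw [pα, hq1, p2', hq2, p1, hJ2']
    ring
  have hmain := H.main hd hT x0 (α i1) _ hclosed
  rw [← hw, hJ, hJα, hJ2, hJ1] at hmain
  have b0 := J_cw_le π (psi d T r) (hgt d x0) (psi_nonneg T r) (psi_le_one T r) (hgt_lip hd x0)
  rw [← hw] at b0
  have b1 : |J π w (α i2) q1| ≤ r := (b0 q1 _).trans (by exact_mod_cast hn1)
  have b2 : |J π w (g2 t) q2| ≤ r := (b0 q2 _).trans (by exact_mod_cast hn2)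
  have b3 : |J π w (g1 v1) q3| ≤ r := (b0 q3 _).trans (by exact_mod_cast hn3)
  have hnorm : (uα * q1 * u2⁻¹ * q2 * u1 * q3).norm ≤ (i2 - i1) + (v2 - t) + (v1 - s) + 3 * r := by
    have c1 := FreeGroup.norm_mul_le (uα * q1 * u2⁻¹ * q2 * u1) q3
    have c2 := FreeGroup.norm_mul_le (uα * q1 * u2⁻¹ * q2) u1
    have c3 := FreeGroup.norm_mul_le (uα * q1 * u2⁻¹) q2
    have c4 := FreeGroup.norm_mul_le (uα * q1) u2⁻¹
    have c5 := FreeGroup.norm_mul_le uα q1
    have c6 : u2⁻¹.norm = u2.norm := FreeGroup.norm_inv_eq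
    have c7 : uα.norm ≤ i2 - i1 := hE2 i1 i2 hi hi2
    have c8 : u2.norm ≤ v2 - t := hE22 t v2 ht hv2
    have c9 : u1.norm ≤ v1 - s := hE12 s v1 hs hv1
    omega
  have hnorm' : ((uα * q1 * u2⁻¹ * q2 * u1 * q3).norm : ℝ) ≤
      ((i2 - i1 : ℕ) : ℝ) + ((v2 - t : ℕ) : ℝ) + ((v1 - s : ℕ) : ℝ) + 3 * r := by
    exact_mod_cast hnorm
  rw [abs_le] at hmain b1 b2 b3 ⊢
  constructor <;> linarith [hmain.1, hmain.2, b1.1, b1.2, b2.1, b2.2, b3.1, b3.2]

/-- **Corner lemma.** -/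
theorem Iso.corner (H : Iso π R m C r) (hd : IsWM π d)
    {α g1 g2 : ℕ → G} {n n1 n2 : ℕ} (hα : Geo d α n) (hg1 : Geo d g1 n1) (hg2 : Geo d g2 n2)
    (h0 : g1 0 = g2 0) {i1 i2 v1 v2 : ℕ} (hi : i1 ≤ i2) (hi2 : i2 ≤ n) (hv1 : v1 ≤ n1)
    (hv2 : v2 ≤ n2) (e1 : d (α i1) (g1 v1) ≤ r) (e2 : d (α i2) (g2 v2) ≤ r)
    (far1 : ∀ i, i1 < i → i < i2 → ∀ j ≤ n1, r < d (α i) (g1 j))
    (far2 : ∀ i, i1 < i → i < i2 → ∀ j ≤ n2, r < d (α i) (g2 j)) :
    i2 - i1 ≤ 7 * r + 12 := by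
  classical
  have hrpos : 0 < r := H.pos
  -- the cut
  let P : ℕ → Prop := fun s => ∃ t ≤ v2, d (g2 t) (g1 s) ≤ r
  have hP0 : P 0 := ⟨0, by omega, by rw [h0, hd.self]; omega⟩
  obtain ⟨s, hs, hPs, hmax⟩ : ∃ s ≤ v1, P s ∧ ∀ s', s < s' → s' ≤ v1 → ¬ P s' := by
    refine ⟨Nat.findGreatest P v1, Nat.findGreatest_le v1, ?_, ?_⟩
    · exact Nat.findGreatest_spec (P := P) (Nat.zero_le v1) hP0
    · intro s' h1 h2
      exact Nat.findGreatest_is_greatest h1 h2
  obtain ⟨t, ht, hts⟩ := hPs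
  have far3 : ∀ j, s < j → j ≤ v1 → ∀ k ≤ v2, r < d (g2 k) (g1 j) := by
    intro j h1 h2 k hk
    by_contra hcon
    exact hmax j h1 h2 ⟨k, hk, by omega⟩
  have e1' : d (g1 v1) (α i1) ≤ r := by rw [hd.symm]; exact e1
  have step : ∀ {g : ℕ → G} {N : ℕ}, Geo d g N → ∀ k, k < N → ∀ x0 : G,
      |hgt d x0 (g (k + 1)) - hgt d x0 (g k)| ≤ 1 := by
    intro g N hg k hk x0
    have a1 := hg k (k + 1) (by omega) (by omega)
    have a2 := hd.tri x0 (g k) (g (k + 1))
    have a3 := hd.tri x0 (g (k + 1)) (g k)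
    rw [hd.symm (g (k + 1)) (g k)] at a3
    unfold hgt
    rw [abs_le]
    constructor
    · have : d x0 (g k) ≤ d x0 (g (k + 1)) + 1 := by omega
      have : (d x0 (g k) : ℝ) ≤ d x0 (g (k + 1)) + 1 := by exact_mod_cast this
      linarith
    · have : d x0 (g (k + 1)) ≤ d x0 (g k) + 1 := by omega
      have : (d x0 (g (k + 1)) : ℝ) ≤ d x0 (g k) + 1 := by exact_mod_cast this
      linarith
  have own : ∀ {g : ℕ → G} {N : ℕ}, Geo d g N → ∀ k, k < N →
      hgt d (g 0) (g (k + 1)) - hgt d (g 0) (g k) = 1 := by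
    intro g N hg k hk
    have a1 := hg 0 (k + 1) (by omega) (by omega)
    have a2 := hg 0 k (by omega) (by omega)
    unfold hgt
    rw [a1, a2]
    push_cast
    simp
  by_contra hcon
  push Not at hcon
  rcases le_total (v1 - s) (i2 - i1) with c1 | c1
  · rcases le_total (v2 - t) (i2 - i1) with c2 | c2
    · -- the side `α` is the longest
      have hT : ({x | ∃ i, i1 < i ∧ i < i2 ∧ x = α i} : Set G).Nonempty :=
        ⟨α (i1 + 1), i1 + 1, by omega, by omega, rfl⟩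
      have hl := H.loop hd hT (α 0) hα hg1 hg2 hi hi2 hs hv1 ht hv2 e2 hts e1'
      rw [sum_zero (γ := g2), sum_zero (γ := g1)] at hl
      · have hlarge := sum_large (γ := α) (i := i1) (j := i2) (ψ := psi d _ r) (h := hgt d (α 0))
          (psi_nonneg {x | ∃ i, i1 < i ∧ i < i2 ∧ x = α i} r) hi
          (fun k _ hk => own hα k (by omega))
          (fun k hk1 hk2 => psi_eq_one hd r ⟨k, hk1, hk2, rfl⟩)
        rw [abs_le] at hl
        have d1 : ((v1 - s : ℕ) : ℝ) ≤ ((i2 - i1 : ℕ) : ℝ) := by exact_mod_cast c1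
        have d2 : ((v2 - t : ℕ) : ℝ) ≤ ((i2 - i1 : ℕ) : ℝ) := by exact_mod_cast c2
        have d3 : ((7 * r + 12 : ℕ) : ℝ) < ((i2 - i1 : ℕ) : ℝ) := by exact_mod_cast hcon
        push_cast at d3
        have := hl.2
        linarith
      · rintro k hk1 hk2
        apply psi_eq_zero hT hrpos
        rintro x ⟨i, hi1, hi2', rfl⟩
        rw [hd.symm]
        exact (far1 i hi1 hi2' k (by omega)).le
      · rintro k hk1 hk2
        apply psi_eq_zero hT hrpos
        rintro x ⟨i, hi1, hi2', rfl⟩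
        rw [hd.symm]
        exact (far2 i hi1 hi2' k (by omega)).le
    · -- the side `g2` is the longest
      have hT : ({x | ∃ j, t ≤ j ∧ j ≤ v2 ∧ x = g2 j} : Set G).Nonempty :=
        ⟨g2 t, t, le_rfl, ht, rfl⟩
      have hl := H.loop hd hT (g2 0) hα hg1 hg2 hi hi2 hs hv1 ht hv2 e2 hts e1'
      have a1 := sum_small (γ := α) (i := i1) (j := i2)
        (ψ := psi d {x | ∃ j, t ≤ j ∧ j ≤ v2 ∧ x = g2 j} r) (h := hgt d (g2 0))
        (psi_nonneg _ r) (psi_le_one _ r) (fun k _ hk => step hα k (by omega) _)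
        (by
          rintro k hk1 hk2
          apply psi_eq_zero hT hrpos
          rintro x ⟨j, _, hj2, rfl⟩
          exact (far2 k hk1 hk2 j (by omega)).le)
      have a2 := sum_small (γ := g1) (i := s) (j := v1)
        (ψ := psi d {x | ∃ j, t ≤ j ∧ j ≤ v2 ∧ x = g2 j} r) (h := hgt d (g2 0))
        (psi_nonneg _ r) (psi_le_one _ r) (fun k _ hk => step hg1 k (by omega) _)
        (by
          rintro k hk1 hk2
          apply psi_eq_zero hT hrpos
          rintro x ⟨j, _, hj2, rfl⟩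
          rw [hd.symm]
          exact (far3 k hk1 (by omega) j hj2).le)
      have a3 := sum_large (γ := g2) (i := t) (j := v2) (ψ := psi d _ r) (h := hgt d (g2 0))
          (psi_nonneg {x | ∃ j, t ≤ j ∧ j ≤ v2 ∧ x = g2 j} r) ht
          (fun k _ hk => own hg2 k (by omega))
          (fun k hk1 hk2 => psi_eq_one hd r ⟨k, hk1.le, hk2.le, rfl⟩)
      rw [abs_le] at hl a1 a2
      have d1 : ((v1 - s : ℕ) : ℝ) ≤ ((v2 - t : ℕ) : ℝ) := by exact_mod_cast c1.trans c2
      have d2 : ((i2 - i1 : ℕ) : ℝ) ≤ ((v2 - t : ℕ) : ℝ) := by exact_mod_cast c2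
      have d3 : ((7 * r + 12 : ℕ) : ℝ) < ((i2 - i1 : ℕ) : ℝ) := by exact_mod_cast hcon
      push_cast at d3
      linarith [hl.1, a1.1, a1.2, a2.1, a2.2]
  · rcases le_total (v2 - t) (v1 - s) with c2 | c2
    · -- the side `g1` is the longest
      have hT : ({x | ∃ j, s < j ∧ j ≤ v1 ∧ x = g1 j} : Set G).Nonempty :=
        ⟨g1 v1, v1, by omega, le_rfl, rfl⟩
      have hl := H.loop hd hT (g1 0) hα hg1 hg2 hi hi2 hs hv1 ht hv2 e2 hts e1'
      rw [sum_zero (γ := g2)] at hl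
      · have a1 := sum_small (γ := α) (i := i1) (j := i2)
          (ψ := psi d {x | ∃ j, s < j ∧ j ≤ v1 ∧ x = g1 j} r) (h := hgt d (g1 0))
          (psi_nonneg _ r) (psi_le_one _ r) (fun k _ hk => step hα k (by omega) _)
          (by
            rintro k hk1 hk2
            apply psi_eq_zero hT hrpos
            rintro x ⟨j, _, hj2, rfl⟩
            exact (far1 k hk1 hk2 j (by omega)).le)
        have a3 := sum_large (γ := g1) (i := s) (j := v1) (ψ := psi d _ r) (h := hgt d (g1 0))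
            (psi_nonneg {x | ∃ j, s < j ∧ j ≤ v1 ∧ x = g1 j} r) hs
            (fun k _ hk => own hg1 k (by omega))
            (fun k hk1 hk2 => psi_eq_one hd r ⟨k, hk1, hk2.le, rfl⟩)
        rw [abs_le] at hl a1
        have d1 : ((i2 - i1 : ℕ) : ℝ) ≤ ((v1 - s : ℕ) : ℝ) := by exact_mod_cast c1
        have d2 : ((v2 - t : ℕ) : ℝ) ≤ ((v1 - s : ℕ) : ℝ) := by exact_mod_cast c2
        have d3 : ((7 * r + 12 : ℕ) : ℝ) < ((i2 - i1 : ℕ) : ℝ) := by exact_mod_cast hcon
        push_cast at d3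
        linarith [hl.2, a1.1, a1.2]
      · rintro k hk1 hk2
        apply psi_eq_zero hT hrpos
        rintro x ⟨j, hj1, hj2, rfl⟩
        exact (far3 j hj1 hj2 k (by omega)).le
    · -- the side `g2` is the longest
      have hT : ({x | ∃ j, t ≤ j ∧ j ≤ v2 ∧ x = g2 j} : Set G).Nonempty :=
        ⟨g2 t, t, le_rfl, ht, rfl⟩
      have hl := H.loop hd hT (g2 0) hα hg1 hg2 hi hi2 hs hv1 ht hv2 e2 hts e1'
      have a1 := sum_small (γ := α) (i := i1) (j := i2)
        (ψ := psi d {x | ∃ j, t ≤ j ∧ j ≤ v2 ∧ x = g2 j} r) (h := hgt d (g2 0))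
        (psi_nonneg _ r) (psi_le_one _ r) (fun k _ hk => step hα k (by omega) _)
        (by
          rintro k hk1 hk2
          apply psi_eq_zero hT hrpos
          rintro x ⟨j, _, hj2, rfl⟩
          exact (far2 k hk1 hk2 j (by omega)).le)
      have a2 := sum_small (γ := g1) (i := s) (j := v1)
        (ψ := psi d {x | ∃ j, t ≤ j ∧ j ≤ v2 ∧ x = g2 j} r) (h := hgt d (g2 0))
        (psi_nonneg _ r) (psi_le_one _ r) (fun k _ hk => step hg1 k (by omega) _)
        (by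
          rintro k hk1 hk2
          apply psi_eq_zero hT hrpos
          rintro x ⟨j, _, hj2, rfl⟩
          rw [hd.symm]
          exact (far3 k hk1 (by omega) j hj2).le)
      have a3 := sum_large (γ := g2) (i := t) (j := v2) (ψ := psi d _ r) (h := hgt d (g2 0))
          (psi_nonneg {x | ∃ j, t ≤ j ∧ j ≤ v2 ∧ x = g2 j} r) ht
          (fun k _ hk => own hg2 k (by omega))
          (fun k hk1 hk2 => psi_eq_one hd r ⟨k, hk1.le, hk2.le, rfl⟩)
      rw [abs_le] at hl a1 a2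
      have d1 : ((v1 - s : ℕ) : ℝ) ≤ ((v2 - t : ℕ) : ℝ) := by exact_mod_cast c2
      have d2 : ((i2 - i1 : ℕ) : ℝ) ≤ ((v2 - t : ℕ) : ℝ) := by exact_mod_cast c1.trans c2
      have d3 : ((7 * r + 12 : ℕ) : ℝ) < ((i2 - i1 : ℕ) : ℝ) := by exact_mod_cast hcon
      push_cast at d3
      linarith [hl.1, a1.1, a1.2, a2.1, a2.2]

end corner

end Vale.Agent.P186.Hy
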