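import Vale.Agent.P186.Hy.Thin
import Vale.Agent.P186.Defs
import Vale.Agent.P201.S.Defs

/-!
P186: the groups of the machine of P201/S with the linear isoperimetric inequality are hyperbolic.
(helper650)
-/

namespace Vale.Agent.P186.Hy

open Vale.Agent.P201.S

theorem IsHyperbolic.group {G : Type*} [Group G] (h : IsHyperbolic G) :
    Vale.Agent.P186.IsHyperbolicGroup G := by
  obtain ⟨S, hS, hc, δ, ht⟩ := h
  refine ⟨hS.toFinset, ?_, δ, ?_⟩
  · rw [hS.coe_toFinset]; exact hc
  · rw [hS.coe_toFinset]; exact ht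

instance finite_let (S : Sys) : Finite (Let S) := by
  have : Function.Surjective (fun a : Unit ⊕ (S.R ⊕ S.B) =>
      (Sum.elim (fun _ => Let.t) (Sum.elim Let.x Let.y) a : Let S)) := by
    intro a
    cases a with
    | t => exact ⟨Sum.inl (), rfl⟩
    | x r => exact ⟨Sum.inr (Sum.inl r), rfl⟩
    | y b => exact ⟨Sum.inr (Sum.inr b), rfl⟩
  exact Finite.of_surjective _ this

theorem area_of_expr {S : Sys} {σ : Equiv.Perm S.C} {k : ℕ} {u : FreeGroup (Let S)} {z : Chn σ}
    (h : Expr σ k u z) : Area (rels σ) k u := by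
  induction h with
  | nil => exact Area.nil
  | cons k u z v q _ ih => exact Area.cons k u v _ (Or.inl ⟨q, rfl⟩) ih

theorem wtw_le_len {S : Sys} (Y : ℕ) (l : List (Let S × Bool)) : wtw Y l ≤ (Y + 1) * l.length := by
  unfold wtw
  induction l with
  | nil => simp
  | cons a l ih =>
    simp only [List.map_cons, List.sum_cons, List.length_cons]
    have h : wtl Y a.1 ≤ Y + 1 := by
      cases a.1 <;> simp [wtl]
    nlinarith

/-- hyperbolicity of the group of the machine -/
theorem hyperbolic_machine {S : Sys} (σ : Equiv.Perm S.C) (e1 : ℝ) (he1 : 0 < e1) (Y : ℕ)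
    (hlin : ∀ l : List (Let S × Bool), PresentedGroup.mk (rels σ) (val l) = 1 →
        ∃ k z, Expr σ k (val l) z ∧ e1 / 2 * k ≤ wtw Y l) :
    Vale.Agent.P186.IsHyperbolicGroup (Gp σ) := by
  classical
  have hfin : (rels σ).Finite := Set.finite_range _
  obtain ⟨m, hm⟩ : ∃ m, ∀ u ∈ rels σ, u.norm ≤ m := by
    obtain ⟨m, hm⟩ := (hfin.image FreeGroup.norm).bddAbove
    exact ⟨m, fun u hu => hm ⟨u, hu, rfl⟩⟩
  refine (isHyperbolic_of_linear (PresentedGroup.mk (rels σ)) (PresentedGroup.mk_surjective _)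
    (rels σ) m ⌈2 * ((Y : ℝ) + 1) / e1⌉₊ ?_ hm ?_).group
  · intro u hu
    exact PresentedGroup.one_of_mem hu
  · intro u hu
    have e : val u.toWord = u := FreeGroup.mk_toWord
    obtain ⟨k, z, hk, hle⟩ := hlin u.toWord (by rw [e]; exact hu)
    rw [e] at hk
    refine ⟨k, ?_, area_of_expr hk⟩
    have h4 : (wtw Y u.toWord : ℝ) ≤ ((Y : ℝ) + 1) * u.norm := by
      have h5 : (wtw Y u.toWord : ℝ) ≤ ((Y + 1) * u.toWord.length : ℕ) := by
        exact_mod_cast wtw_le_len Y u.toWord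
      push_cast at h5
      exact h5
    have h5 : (k : ℝ) ≤ 2 * ((Y : ℝ) + 1) / e1 * u.norm := by
      rw [div_mul_eq_mul_div, le_div_iff₀ he1]
      nlinarith
    have h6 : (k : ℝ) ≤ (⌈2 * ((Y : ℝ) + 1) / e1⌉₊ : ℝ) * u.norm :=
      h5.trans (mul_le_mul_of_nonneg_right (Nat.le_ceil _) (by positivity))
    exact_mod_cast h6

end Vale.Agent.P186.Hy
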