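import Vale.Agent.P186.Hy.Corner

/-!
P186: a linear isoperimetric inequality implies thin triangles.  Part 3: triangles, Cayley graphs.
(helper650)
-/

set_option linter.unusedSectionVars false

namespace Vale.Agent.P186.Hy

open FreeGroup (of mk)

section triangle

variable {A G : Type*} [DecidableEq A] [Group G] {π : FreeGroup A →* G} {d : G → G → ℕ}
  {R : Set (FreeGroup A)} {m C r : ℕ}

theorem Geo.reverse (hd : IsWM π d) {γ : ℕ → G} {n : ℕ} (h : Geo d γ n) :
    Geo d (fun j => γ (n - j)) n := by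
  intro i j hij hj
  have := h (n - j) (n - i) (by omega) (by omega)
  rw [hd.symm]
  simp only [this]
  omega

/-- geodesic triangles are thin -/
theorem Iso.thin (H : Iso π R m C r) (hd : IsWM π d) {α β γ : ℕ → G} {n n' n'' : ℕ}
    (hα : Geo d α n) (hβ : Geo d β n') (hγ : Geo d γ n'') (h1 : α n = β 0) (h2 : β n' = γ 0)
    (h3 : γ n'' = α 0) {i0 : ℕ} (hi0 : i0 ≤ n) :
    (∃ j ≤ n', d (α i0) (β j) ≤ 8 * r + 12) ∨ (∃ j ≤ n'', d (α i0) (γ j) ≤ 8 * r + 12) := by
  classical
  set g1 : ℕ → G := fun j => β (n' - j) with hg1def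
  have hg1 : Geo d g1 n' := hβ.reverse hd
  let P : ℕ → Prop := fun i => ∃ j ≤ n', d (α i) (g1 j) ≤ r
  let Q : ℕ → Prop := fun i => ∃ j ≤ n'', d (α i) (γ j) ≤ r
  suffices hs : (∃ j ≤ n', d (α i0) (g1 j) ≤ 8 * r + 12) ∨
      (∃ j ≤ n'', d (α i0) (γ j) ≤ 8 * r + 12) by
    rcases hs with ⟨j, hj, hh⟩ | h
    · exact Or.inl ⟨n' - j, by omega, hh⟩
    · exact Or.inr h
  by_cases hPQ : P i0 ∨ Q i0
  · rcases hPQ with ⟨j, hj, hh⟩ | ⟨j, hj, hh⟩
    · exact Or.inl ⟨j, hj, by omega⟩
    · exact Or.inr ⟨j, hj, by omega⟩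
  have hQ0 : P 0 ∨ Q 0 := Or.inr ⟨n'', le_rfl, by rw [h3, hd.self]; omega⟩
  have hPn : P n ∨ Q n := Or.inl ⟨n', le_rfl, by
    simp only [hg1def, Nat.sub_self]
    rw [h1, hd.self]; omega⟩
  obtain ⟨i1, hi1, hP1, hmax⟩ : ∃ i1 ≤ i0, (P i1 ∨ Q i1) ∧ ∀ i, i1 < i → i ≤ i0 → ¬ (P i ∨ Q i) := by
    refine ⟨Nat.findGreatest (fun i => P i ∨ Q i) i0, Nat.findGreatest_le i0, ?_, ?_⟩
    · exact Nat.findGreatest_spec (P := fun i => P i ∨ Q i) (Nat.zero_le i0) hQ0
    · intro s' h1 h2
      exact Nat.findGreatest_is_greatest h1 h2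
  have hex : ∃ i, i0 ≤ i ∧ (P i ∨ Q i) := ⟨n, hi0, hPn⟩
  obtain ⟨i2, hi2, hi2n, hP2, hmin⟩ : ∃ i2, i0 ≤ i2 ∧ i2 ≤ n ∧ (P i2 ∨ Q i2) ∧
      ∀ i, i0 ≤ i → i < i2 → ¬ (P i ∨ Q i) := by
    refine ⟨Nat.find hex, (Nat.find_spec hex).1, Nat.find_min' hex ⟨hi0, hPn⟩,
      (Nat.find_spec hex).2, ?_⟩
    intro i h1 h2 h3
    exact Nat.find_min hex h2 ⟨h1, h3⟩
  have far : ∀ i, i1 < i → i < i2 → ¬ (P i ∨ Q i) := by
    intro i h1 h2
    rcases le_total i i0 with h | h
    · exact hmax i h1 h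
    · exact hmin i h h2
  have farP : ∀ i, i1 < i → i < i2 → ∀ j ≤ n', r < d (α i) (g1 j) := by
    intro i h1 h2 j hj
    by_contra hcon
    exact far i h1 h2 (Or.inl ⟨j, hj, by omega⟩)
  have farQ : ∀ i, i1 < i → i < i2 → ∀ j ≤ n'', r < d (α i) (γ j) := by
    intro i h1 h2 j hj
    by_contra hcon
    exact far i h1 h2 (Or.inr ⟨j, hj, by omega⟩)
  have h0 : g1 0 = γ 0 := by simp only [hg1def, Nat.sub_zero]; exact h2
  have hlen : i2 - i1 ≤ 7 * r + 12 := by
    rcases hP1 with ⟨v1, hv1, e1⟩ | ⟨v1, hv1, e1⟩ <;> rcases hP2 with ⟨v2, hv2, e2⟩ | ⟨v2, hv2, e2⟩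
    · exact H.corner hd hα hg1 hg1 rfl (by omega) hi2n hv1 hv2 e1 e2 farP farP
    · exact H.corner hd hα hg1 hγ h0 (by omega) hi2n hv1 hv2 e1 e2 farP farQ
    · exact H.corner hd hα hγ hg1 h0.symm (by omega) hi2n hv1 hv2 e1 e2 farQ farP
    · exact H.corner hd hα hγ hγ rfl (by omega) hi2n hv1 hv2 e1 e2 farQ farQ
  have hdist : d (α i0) (α i1) ≤ 7 * r + 12 := by
    rw [hd.symm, hα i1 i0 hi1 (by omega)]
    omega
  rcases hP1 with ⟨v1, hv1, e1⟩ | ⟨v1, hv1, e1⟩
  · refine Or.inl ⟨v1, hv1, ?_⟩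
    have := hd.tri (α i0) (α i1) (g1 v1)
    omega
  · refine Or.inr ⟨v1, hv1, ?_⟩
    have := hd.tri (α i0) (α i1) (γ v1)
    omega

end triangle

/-- `δ`-thin geodesic triangles: for all geodesics `p : a → b`, `q : b → c`, `t : c → a` (walks whose
length is the distance of their ends) every vertex of `p` is within `δ` of a vertex of `q` or `t`. -/
def ThinTriangles {V : Type*} (Γ : SimpleGraph V) (δ : ℕ) : Prop :=
  ∀ (a b c : V) (p : Γ.Walk a b) (q : Γ.Walk b c) (t : Γ.Walk c a),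
    p.length = Γ.dist a b → q.length = Γ.dist b c → t.length = Γ.dist c a →
      ∀ x ∈ p.support, ∃ y, (y ∈ q.support ∨ y ∈ t.support) ∧ Γ.dist x y ≤ δ

/-- a word-hyperbolic group: for some finite generating set the geodesic triangles of the Cayley graph
are `δ`-thin for some `δ` -/
def IsHyperbolic (G : Type*) [Group G] : Prop :=
  ∃ S : Set G, S.Finite ∧ Subgroup.closure S = ⊤ ∧
    ∃ δ : ℕ, ThinTriangles (SimpleGraph.mulCayley S) δ

section cayley

variable {A G : Type*} [DecidableEq A] [Group G] (π : FreeGroup A →* G)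

/-- the Cayley graph of the images of the letters -/
def cay : SimpleGraph G := SimpleGraph.mulCayley (Set.range (fun a => π (of a)))

theorem cay_letter (x : G) (l : A × Bool) :
    x = x * π (mk [l]) ∨ (cay π).Adj x (x * π (mk [l])) := by
  by_cases h : x = x * π (mk [l])
  · exact Or.inl h
  refine Or.inr ?_
  unfold cay
  rw [SimpleGraph.mulCayley_adj']
  refine ⟨h, ?_⟩
  obtain ⟨a, b⟩ := l
  refine ⟨π (of a), ⟨a, rfl⟩, ?_⟩
  cases b
  · right
    have e : (mk [(a, false)] : FreeGroup A) = (of a)⁻¹ := rfl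
    rw [e, map_inv, inv_mul_cancel_right]
  · left; rfl

theorem exists_walk_word (W : List (A × Bool)) :
    ∀ x, ∃ p : (cay π).Walk x (x * π (mk W)), p.length ≤ W.length := by
  induction W with
  | nil =>
    intro x
    have : (mk [] : FreeGroup A) = 1 := rfl
    rw [this, map_one, mul_one]
    exact ⟨SimpleGraph.Walk.nil, le_rfl⟩
  | cons l W ih =>
    intro x
    have e : (mk (l :: W) : FreeGroup A) = mk [l] * mk W := by
      rw [FreeGroup.mul_mk]; rfl
    rw [e, map_mul, ← mul_assoc]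
    obtain ⟨p, hp⟩ := ih (x * π (mk [l]))
    rcases cay_letter π x l with h | h
    · refine ⟨p.copy h.symm rfl, ?_⟩
      rw [SimpleGraph.Walk.length_copy]
      simp only [List.length_cons]
      omega
    · refine ⟨SimpleGraph.Walk.cons h p, ?_⟩
      simp only [SimpleGraph.Walk.length_cons, List.length_cons]
      omega

theorem word_of_walk {x y : G} (p : (cay π).Walk x y) :
    ∃ u : FreeGroup A, x * π u = y ∧ u.norm ≤ p.length := by
  induction p with
  | nil => exact ⟨1, by simp, by simp⟩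
  | @cons x z y h p ih =>
    obtain ⟨u, hu, hn⟩ := ih
    obtain ⟨_, g, ⟨a, rfl⟩, ha⟩ :=
      (SimpleGraph.mulCayley_adj' (Set.range (fun a => π (of a))) x z).1 h
    have : ∃ l : FreeGroup A, x * π l = z ∧ l.norm ≤ 1 := by
      rcases ha with ha | ha
      · exact ⟨of a, ha, (FreeGroup.norm_of a).le⟩
      · refine ⟨(of a)⁻¹, ?_, ?_⟩
        · rw [map_inv, ha, mul_inv_cancel_right]
        · rw [FreeGroup.norm_inv_eq]; exact (FreeGroup.norm_of a).le
    obtain ⟨l, hl, hl1⟩ := this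
    refine ⟨l * u, by rw [map_mul, ← mul_assoc, hl, hu], ?_⟩
    have := FreeGroup.norm_mul_le l u
    simp only [SimpleGraph.Walk.length_cons]
    omega

variable {π}

theorem cay_reachable (hπ : Function.Surjective π) (x y : G) : (cay π).Reachable x y := by
  obtain ⟨u, hu⟩ := hπ (x⁻¹ * y)
  obtain ⟨p, _⟩ := exists_walk_word π u.toWord x
  rw [FreeGroup.mk_toWord, hu, mul_inv_cancel_left] at p
  exact ⟨p⟩

theorem isWM_dist (hπ : Function.Surjective π) : IsWM π (cay π).dist := by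
  intro x y n
  constructor
  · intro h
    obtain ⟨p, hp⟩ := (cay_reachable hπ x y).exists_walk_length_eq_dist
    obtain ⟨u, hu, hn⟩ := word_of_walk π p
    exact ⟨u, hu, by omega⟩
  · rintro ⟨u, hu, hn⟩
    obtain ⟨p, hp⟩ := exists_walk_word π u.toWord x
    have h1 := (SimpleGraph.dist_le p).trans hp
    rw [FreeGroup.mk_toWord, hu] at h1
    exact h1.trans hn

theorem geo_walk (hπ : Function.Surjective π) {a b : G} (p : (cay π).Walk a b)
    (hp : p.length = (cay π).dist a b) : Geo (cay π).dist p.getVert p.length := by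
  have hd := isWM_dist hπ
  have up : ∀ i j, i ≤ j → j ≤ p.length → (cay π).dist (p.getVert i) (p.getVert j) ≤ j - i := by
    intro i j hij
    induction j, hij using Nat.le_induction with
    | base => intro _; rw [hd.self]; omega
    | succ j hij ih =>
      intro hj
      have h1 := ih (by omega)
      have h2 := p.adj_getVert_succ (i := j) (by omega)
      have h3 : (cay π).dist (p.getVert j) (p.getVert (j + 1)) = 1 :=
        SimpleGraph.dist_eq_one_iff_adj.2 h2
      have h4 := hd.tri (p.getVert i) (p.getVert j) (p.getVert (j + 1))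
      omega
  intro i j hij hj
  refine le_antisymm (up i j hij hj) ?_
  have h1 := up 0 i (by omega) (by omega)
  have h2 := up j p.length hj le_rfl
  rw [SimpleGraph.Walk.getVert_zero] at h1
  rw [SimpleGraph.Walk.getVert_length] at h2
  have h3 := hd.tri a (p.getVert i) b
  have h4 := hd.tri (p.getVert i) (p.getVert j) b
  omega

end cayley

/-- **A linear isoperimetric inequality implies hyperbolicity.** `A` finite, `π` surjective, the
elements of `R` are in the kernel and have length at most `m`, every `u` in the kernel is a product of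
at most `C * |u|` conjugates of elements of `R` and their inverses. -/
theorem isHyperbolic_of_linear {A G : Type*} [DecidableEq A] [Finite A] [Group G]
    (π : FreeGroup A →* G) (hπ : Function.Surjective π) (R : Set (FreeGroup A)) (m C : ℕ)
    (hker : ∀ u ∈ R, π u = 1) (hlen : ∀ u ∈ R, u.norm ≤ m)
    (harea : ∀ u, π u = 1 → ∃ k, k ≤ C * u.norm ∧ Area R k u) : IsHyperbolic G := by
  have H : Iso π R m C (6 * C * m ^ 2 + 1) :=
    ⟨hker, hlen, harea, by omega, by omega⟩
  have hd := isWM_dist hπ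
  refine ⟨Set.range (fun a => π (of a)), Set.finite_range _, ?_, 8 * (6 * C * m ^ 2 + 1) + 12, ?_⟩
  · refine (Subgroup.eq_top_iff' _).2 fun g => ?_
    obtain ⟨u, rfl⟩ := hπ g
    induction u using FreeGroup.induction_on with
    | C1 => simp
    | of a => exact Subgroup.subset_closure ⟨a, rfl⟩
    | inv_of a h =>
      rw [map_inv]
      exact Subgroup.inv_mem _ h
    | mul u v hu hv =>
      rw [map_mul]
      exact Subgroup.mul_mem _ hu hv
  · change ThinTriangles (cay π) _
    intro a b c p q t hp hq ht x hx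
    obtain ⟨i, hi, hil⟩ := SimpleGraph.Walk.mem_support_iff_exists_getVert.1 hx
    have := H.thin hd (geo_walk hπ p hp) (geo_walk hπ q hq) (geo_walk hπ t ht)
      (p.getVert_length.trans q.getVert_zero.symm) (q.getVert_length.trans t.getVert_zero.symm)
      (t.getVert_length.trans p.getVert_zero.symm) hil
    rw [hi] at this
    rcases this with ⟨j, _, hj⟩ | ⟨j, _, hj⟩
    · exact ⟨q.getVert j, Or.inl (q.getVert_mem_support j), hj⟩
    · exact ⟨t.getVert j, Or.inr (t.getVert_mem_support j), hj⟩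

end Vale.Agent.P186.Hy
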